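import Vale.Agent.P302H.Rate
import Vale.Agent.P302H.Hard

namespace Vale.Agent.Results.P302.AAHardGap

open Vale.Agent.P302 Vale.Agent.P302H Vale.Agent.Lib.NP

/-- The modified integer round-up conjecture is false; the additive gap grows at least like
`sqrt (log OPT / log log OPT)`; and additive approximation of the optimum is NP-hard. -/
theorem result :
    (¬ ∀ (n : ℕ) (a : Fin n → ℚ), IsInstance a → (OPT a : ℤ) ≤ ⌈LP a⌉ + 1) ∧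
    (∀ c : ℕ, 2 ≤ c → ∃ (n : ℕ) (a : Fin n → ℚ), (∀ i, 1 / 4 < a i ∧ a i < 1 / 2) ∧
      n ≤ c ^ (20000 * c ^ 2) ∧ ⌈LP a⌉ + (c : ℤ) < (OPT a : ℤ)) ∧
    (∃ m₀ : ℕ, ∀ m ≥ m₀, ∃ (n : ℕ) (a : Fin n → ℚ), IsInstance a ∧ OPT a = m ∧
      √(Real.log m / Real.log (Real.log m)) / 150 < (OPT a : ℝ) - LP a) ∧
    ∀ c : ℕ, GapHard c ∧ (HasAdditive c → ∀ L, InNP L → InP L) := by
  have key : ∀ c : ℕ, 2 ≤ c → ∃ (n : ℕ) (a : Fin n → ℚ), (∀ i, 1 / 4 < a i ∧ a i < 1 / 2) ∧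
      n ≤ c ^ (20000 * c ^ 2) ∧ ⌈LP a⌉ + (c : ℤ) < (OPT a : ℤ) := by
    intro c hc
    obtain ⟨L, N, h1, h2, h3, h4⟩ := exists_gap_size hc
    refine ⟨_, L.get, fun i => h1 _ (List.get_mem _ i), h4, ?_⟩
    have h5 : ⌈LP L.get⌉ ≤ (N : ℤ) := Int.ceil_le.2 (by exact_mod_cast h2.lp_le)
    omega
  refine ⟨fun h => ?_, key, exists_rate, fun c => ⟨gapHard c, fun h _ hL => no_additive h hL⟩⟩
  obtain ⟨n, a, h1, -, h2⟩ := key 2 le_rfl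
  have := h n a fun i => ⟨by linarith [(h1 i).1], by linarith [(h1 i).2]⟩
  push_cast at h2
  omega

end Vale.Agent.Results.P302.AAHardGap
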