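import Vale.Agent.P302.Main

namespace Vale.Agent.Results.P302.AUnboundedGap

open Vale.Agent.P302

/-- The modified integer round-up conjecture is false, and the additive gap between the optimum
and the configuration LP value is unbounded, already for item sizes in `(1/4, 1/2)`. -/
theorem result :
    (¬ ∀ (n : ℕ) (a : Fin n → ℚ), IsInstance a → (OPT a : ℤ) ≤ ⌈LP a⌉ + 1) ∧
    ∀ c : ℕ, ∃ (n : ℕ) (a : Fin n → ℚ), IsInstance a ∧ (∀ i, 1 / 4 < a i ∧ a i < 1 / 2) ∧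
      ⌈LP a⌉ + (c : ℤ) < (OPT a : ℤ) := by
  have key : ∀ c : ℕ, ∃ (n : ℕ) (a : Fin n → ℚ), IsInstance a ∧
      (∀ i, 1 / 4 < a i ∧ a i < 1 / 2) ∧ ⌈LP a⌉ + (c : ℤ) < (OPT a : ℤ) := by
    intro c
    obtain ⟨n, a, N, h1, h2, h3⟩ := exists_gap c
    refine ⟨n, a, fun i => ⟨by linarith [(h1 i).1], by linarith [(h1 i).2]⟩, h1, ?_⟩
    have h4 : ⌈LP a⌉ ≤ (N : ℤ) := Int.ceil_le.2 (by exact_mod_cast h2)
    omega
  refine ⟨fun h => ?_, key⟩
  obtain ⟨n, a, h1, -, h2⟩ := key 1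
  have := h n a h1
  push_cast at h2
  omega

end Vale.Agent.Results.P302.AUnboundedGap
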